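import Vale.Agent.P235.K5.Glue

/-!
# K5, the glue: row REC (the recursion from the root)
-/

namespace Vale.Agent.P235.K5.H346

open Finset Function Vale.Agent.P235.H684 Vale.Agent.P235.K5

variable {n T k : ℕ}

/-- the recursion along the tree of torsos -/
noncomputable def rc {C : Type} (Z : Tor n T k) (F : Fin T → C → C) (c0 : C) (t : Fin T) : C :=
  if h : Z.up t = t then F t c0 else F t (rc Z F c0 (Z.up t))
termination_by t.val
decreasing_by exact lt_of_le_of_ne (Z.up_le t) fun h' => h (Fin.ext h')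

lemma rc_root {C : Type} (Z : Tor n T k) (F : Fin T → C → C) (c0 : C) (t : Fin T)
    (h : Z.up t = t) : rc Z F c0 t = F t c0 := by
  rw [rc, dif_pos h]

lemma rc_step {C : Type} (Z : Tor n T k) (F : Fin T → C → C) (c0 : C) (t : Fin T)
    (h : Z.up t ≠ t) : rc Z F c0 t = F t (rc Z F c0 (Z.up t)) := by
  rw [rc, dif_neg h]

lemma S_sub_H (Z : Tor n T k) (t : Fin T) : ∀ a ∈ Z.S t, a ∈ Z.H (Z.up t) := by
  intro a ha
  unfold Tor.H
  rcases Z.sub t a ha with h | h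
  · exact mem_union_left _ h
  · exact mem_union_right _ (by simp [h])

/-- the recursion from the root, in existence form: cut measures between `d / D` and `d` on the
torsos, equal on the adhesions -/
theorem exists_cuts (Z : Tor n T k) (d : Fin n → Fin n → ℝ) (D : ℝ) (hP : Z.Presc d D) :
    ∃ c : Fin T → (Fin n → Bool) → ℝ, (∀ t X, 0 ≤ c t X) ∧
      (∀ t, Z.up t ≠ t → ∀ a ∈ Z.S t, ∀ b ∈ Z.S t, Tor.cm (c t) a b = Tor.cm (c (Z.up t)) a b) ∧
      ∀ t, ∀ p ∈ Z.H t, ∀ q ∈ Z.H t, d p q / D ≤ Tor.cm (c t) p q ∧ Tor.cm (c t) p q ≤ d p q := by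
  classical
  have hF : ∀ (t : Fin T) (c : (Fin n → Bool) → ℝ), ∃ c' : (Fin n → Bool) → ℝ,
      (∀ X, 0 ≤ c X) →
      (∀ a ∈ Z.S t, ∀ b ∈ Z.S t, d a b / D ≤ Tor.cm c a b ∧ Tor.cm c a b ≤ d a b) →
      (∀ X, 0 ≤ c' X) ∧
      (∀ a ∈ Z.S t, ∀ b ∈ Z.S t, Tor.cm c' a b = Tor.cm c a b) ∧
      ∀ p ∈ Z.H t, ∀ q ∈ Z.H t, d p q / D ≤ Tor.cm c' p q ∧ Tor.cm c' p q ≤ d p q := by
    intro t c
    by_cases h0 : ∀ X, 0 ≤ c X
    · by_cases h1 : ∀ a ∈ Z.S t, ∀ b ∈ Z.S t, d a b / D ≤ Tor.cm c a b ∧ Tor.cm c a b ≤ d a b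
      · obtain ⟨c', h⟩ := hP t c h0 h1
        exact ⟨c', fun _ _ => h⟩
      · exact ⟨c, fun _ h => absurd h h1⟩
    · exact ⟨c, fun h => absurd h h0⟩
  choose F hF using hF
  have key : ∀ m : ℕ, ∀ t : Fin T, t.val = m →
      (∀ X, 0 ≤ rc Z F 0 t X) ∧
      (Z.up t ≠ t → ∀ a ∈ Z.S t, ∀ b ∈ Z.S t,
        Tor.cm (rc Z F 0 t) a b = Tor.cm (rc Z F 0 (Z.up t)) a b) ∧
      ∀ p ∈ Z.H t, ∀ q ∈ Z.H t,
        d p q / D ≤ Tor.cm (rc Z F 0 t) p q ∧ Tor.cm (rc Z F 0 t) p q ≤ d p q := by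
    intro m
    induction m using Nat.strong_induction_on with
    | _ m ih =>
      intro t ht
      by_cases hu : Z.up t = t
      · rw [rc_root Z F 0 t hu]
        have h := hF t 0 (fun _ => le_rfl) (by
          intro a ha
          rw [Z.root t hu] at ha
          exact absurd ha (Finset.notMem_empty a))
        exact ⟨h.1, fun h' => absurd hu h', h.2.2⟩
      · rw [rc_step Z F 0 t hu]
        have hlt : (Z.up t).val < m := by
          rw [← ht]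
          exact lt_of_le_of_ne (Z.up_le t) fun h' => hu (Fin.ext h')
        obtain ⟨h1, -, h3⟩ := ih _ hlt (Z.up t) rfl
        have h := hF t (rc Z F 0 (Z.up t)) h1
          (fun a ha b hb => h3 a (S_sub_H Z t a ha) b (S_sub_H Z t b hb))
        exact ⟨h.1, fun _ => h.2.1, h.2.2⟩
  exact ⟨fun t => rc Z F 0 t, fun t => (key _ t rfl).1, fun t => (key _ t rfl).2.1,
    fun t => (key _ t rfl).2.2⟩

/-- **[REC]** -/
theorem rec_of (hL : LawStmt) : RecStmt := by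
  intro n T Z d D hP
  obtain ⟨c, h0, h1, h2⟩ := exists_cuts Z d D hP
  obtain ⟨μ, Λ, hΛ, hμ, hC, hE⟩ := hL Z c h0 h1
  refine ⟨μ, Λ, hΛ, hμ, hC, fun t p hp q hq => ?_⟩
  rw [hE t p q]
  exact h2 t p hp q hq

end Vale.Agent.P235.K5.H346
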